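import Vale.Agent.Lib.P371S.Main

/-!
# P371: the best constants in the one-dimensional Lieb-Thirring inequalities, `1/2 < γ < 3/2`
-/

open Vale.Agent.P371S

namespace Vale.Agent.Results.P371.LeastConstants

/-- Let `1/2 < γ < 3/2`. One number, `2 ((γ-1/2)/(γ+1/2))^(γ-1/2) L_γ^{cl}`, is for every `m ≥ 1`
the least constant `L_γ(m)` in `Tr (H_W)_-^γ ≤ C ∫ tr (W ^ (γ + 1/2))` for potentials of size `m`,
and it is the least constant `L_γ^{(1)}` in the inequality for one bound state of a scalar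
potential. -/
theorem result (γ : ℝ) (h0 : 1 / 2 < γ) (h1 : γ < 3 / 2) :
    ∃ L : ℝ, L = 2 * ((γ - 1 / 2) / (γ + 1 / 2)) ^ (γ - 1 / 2) *
        (Real.Gamma (γ + 1) / (2 * √Real.pi * Real.Gamma (γ + 3 / 2))) ∧
      (∀ m : ℕ, 1 ≤ m → IsLeast (LTConstants γ m) L) ∧
      IsLeast (OneStateConstants γ) L :=
  ⟨_, rfl, fun _ hm => isLeast_LT h0 h1 hm, isLeast_one h0 h1⟩

end Vale.Agent.Results.P371.LeastConstants
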