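import Vale.Agent.Lib.P371.Gen.Final

/-!
# P371: the sharp one-dimensional Lieb-Thirring constants for `1/2 < γ < 3/2`

For scalar and for matrix potentials of every size `m`, the sharp Lieb-Thirring constant `L_γ(m)` on
the line equals the one-bound-state constant `L_γ^{(1)}`.
-/

open Vale.Agent.P371

namespace Vale.Agent.Results.P371.LiebThirring

/-- The one-dimensional Lieb-Thirring conjecture, for scalar and for matrix potentials:
`L_γ(m) = L_γ(1) = L_γ^{(1)} = 2 ((γ-1/2)/(γ+1/2))^(γ-1/2) L_γ^{cl}` for all `1/2 < γ < 3/2` and all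
`m ≥ 1`. -/
theorem result :
    ∀ γ : ℝ, 1 / 2 < γ → γ < 3 / 2 → ∀ m : ℕ, 1 ≤ m →
      LT γ m = ENNReal.ofReal (Lone γ) ∧ LT γ m = LT γ 1 := by
  intro γ h0 h1 m hm
  have h := Gen.LT_eq h0 h1 hm
  exact ⟨h, h.trans (Gen.LT_eq h0 h1 le_rfl).symm⟩

end Vale.Agent.Results.P371.LiebThirring
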