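import Vale.Agent.Lib.P371.Gen.Final
import Vale.Agent.Lib.P371.LowerOne

/-!
# P371: the sharp one-dimensional Lieb-Thirring constants for `1/2 < γ < 3/2`

The same theorem as in `LiebThirring`, with the one-bound-state constant `L_γ^{(1)}` also in its
variational definition.
-/

open Vale.Agent.P371

namespace Vale.Agent.Results.P371.LiebThirringSup

/-- The one-dimensional Lieb-Thirring conjecture, for scalar and for matrix potentials:
`L_γ(m) = L_γ(1) = L_γ^{(1)}` for all `1/2 < γ < 3/2` and all `m ≥ 1`, where `L_γ^{(1)}` is the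
supremum over scalar potentials with one eigenvalue in the numerator, and its value is
`2 ((γ-1/2)/(γ+1/2))^(γ-1/2) L_γ^{cl}`. -/
theorem result :
    ∀ γ : ℝ, 1 / 2 < γ → γ < 3 / 2 →
      LT γ 1 = LTone γ ∧ (∀ m : ℕ, 1 ≤ m → LT γ m = LT γ 1) ∧
      LTone γ = ENNReal.ofReal (Lone γ) := by
  intro γ h0 h1
  have h := Gen.LT_eq h0 h1 (le_refl 1)
  have h2 : LTone γ = ENNReal.ofReal (Lone γ) :=
    le_antisymm ((LTone_le_LT γ).trans h.le) (Lone_le_LTone h0)
  exact ⟨h.trans h2.symm, fun m hm => (Gen.LT_eq h0 h1 hm).trans h.symm, h2⟩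

end Vale.Agent.Results.P371.LiebThirringSup
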