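import Vale.Agent.Lib.P371.Defs
import Vale.Agent.Lib.P371.Kinetic
import Vale.Agent.Lib.P371.UpperLT
import Vale.Agent.Lib.P371.LowerBound

open MeasureTheory Matrix
open scoped ENNReal

namespace Vale.Agent.Results.P371.SharpGammaOne

open Vale.Agent.P371

theorem kineticIneq (m : ℕ) : KineticIneq m :=
  fun _ _ _ hf ho => kinetic hf ho

/-- The sharp Lieb-Thirring constants at `γ = 1`, for scalar and for matrix potentials, and the
two-sided bound which follows for `γ ≥ 1`. -/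
theorem result :
    (∀ m : ℕ, 1 ≤ m → LT 1 m = ENNReal.ofReal (Lone 1)) ∧
    Lone 1 = 4 / (3 * √3 * Real.pi) ∧
    (∀ γ : ℝ, 1 ≤ γ → ∀ m : ℕ, 1 ≤ m →
      ENNReal.ofReal (Lone γ) ≤ LT γ m ∧ LT γ m ≤ ENNReal.ofReal (2 / √3 * Lcl γ)) := by
  refine ⟨fun m hm => le_antisymm (LT_one_le (kineticIneq m))
    (Lone_le_LT (by norm_num) hm), ?_, fun γ hγ m hm => ⟨Lone_le_LT (by linarith) hm,
      LT_le_of_one_le (kineticIneq m) hγ⟩⟩
  rw [Lone_one]
  field_simp
  norm_num

end Vale.Agent.Results.P371.SharpGammaOne
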